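import Vale.Agent.P290Z.PL.B

/-!
# P290: the planar lemma
-/

noncomputable section
namespace Vale.Agent.P290Z.PL
open Complex Set Topology Filter Metric

theorem gg_gauge {P : Set ℂ} (hP : IsCompact P) (hc : Convex ℝ P) (h0 : P ∈ 𝓝 (0 : ℂ)) :
    Gg (gauge P) where
  cont := continuous_gauge hc h0
  hom t ht z := by
    rw [← real_smul, gauge_smul_of_nonneg ht, smul_eq_mul]
  pos z hz := (gauge_pos (absorbent_nhds_zero h0)
    ((NormedSpace.isVonNBounded_iff ℝ).2 hP.isBounded)).2 hz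

theorem main (hR : RS) {P : Set ℂ} (hP : IsCompact P) (hc : Convex ℝ P) (h0 : P ∈ 𝓝 (0 : ℂ))
    (M : ℝ) {η ε : ℝ} (hη : 0 < η) (hε : 0 < ε) :
    ∃ (κ h : ℂ → ℂ) (n : ℕ) (c : Fin n → ℂ) (A : Fin n → Set ℂ),
      Differentiable ℂ κ ∧ Differentiable ℂ h ∧
      (∀ z ∈ P, ‖κ z - 1‖ < ε ∧ ‖h z - 1‖ < ε) ∧
      (∀ z : ℂ, ‖z‖ ≤ M → -1 ≤ (h z).re →
        ∃ s : ℝ, 0 ≤ s ∧ s ≤ 1 ∧ ‖κ z - s‖ < η ∧ (s : ℂ) * z ∈ P) ∧
      (∀ z : ℂ, ‖z‖ ≤ M → (h z).re ≤ -1 / 2 → ∃ j, z ∈ interior (A j)) ∧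
      (∀ j, c j ∈ frontier P ∧ IsCompact (A j)) ∧ Pairwise (fun i j => Disjoint (A i) (A j)) ∧
      (∀ j, ∀ z ∈ A j, z ≠ 0 ∧ ∃ s : ℝ, 0 ≤ s ∧ s ≤ 1 ∧ ‖c j / z - s‖ < η) ∧
      ∀ j, ∀ z ∈ A j, ‖z‖ ≤ M → -1 ≤ (h z).re → ‖κ z - c j / z‖ < η := by
  have G := gg_gauge hP hc h0
  have hle : ∀ z, gauge P z ≤ 1 ↔ z ∈ P := fun z => by
    rw [gauge_le_one_iff_mem_closure hc h0, hP.isClosed.closure_eq]
  have hfr : ∀ z, gauge P z = 1 → z ∈ frontier P := fun z =>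
    (gauge_eq_one_iff_mem_frontier hc h0).1
  generalize gauge P = g at G hle hfr
  obtain ⟨n, hn, hfine⟩ := G.fine (η := η / 2) (by positivity)
  obtain ⟨N, hN, hM⟩ := G.exists_bound M
  obtain ⟨κ, k1, k2, k3⟩ := G.kappa hR ((Finset.range (n + 1)).image (tt n)) N
    (ε := min ε (η / 4)) (by positivity)
  obtain ⟨τ, hτ, hO⟩ := G.comb hn k1.continuous (η := η / 4) (by positivity) hN
    (fun z hz => (k2 z hz).trans_le (min_le_right _ _)) fun j hj s a b =>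
      (k3 _ (Finset.mem_image_of_mem _ (Finset.mem_range.2 (by omega))) s a b).trans_le
        (min_le_right _ _)
  obtain ⟨h, h1, h2, h3⟩ := G.hfun hR n hτ N (ε := min ε 1) (by positivity)
  have hτ2 : 0 < τ / 2 := by positivity
  have hb : ∀ z : ℂ, ‖z‖ ≤ M → -1 ≤ (h z).re → ‖κ z - ((max 1 (g z))⁻¹ : ℝ)‖ < η / 2 := by
    intro z a b
    refine (hO z (hM z a) fun j hj hz => ?_).trans_le (by linarith)
    have e := ((re_le_norm _).trans_lt (h3 j hj z hz)).trans_le (min_le_right _ _)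
    simp only [add_re, re_ofNat] at e
    linarith
  have hd : ∀ j : Fin n, ∀ z ∈ sec g n j (τ / 2) (N + 1), z ≠ 0 ∧ 1 ≤ g z ∧
      ‖bb g (tt n j) / z - ((g z)⁻¹ : ℝ)‖ < η / 2 := by
    intro j z hz
    obtain ⟨⟨a, b⟩, c, -⟩ := (G.mem_sec j.2 hτ2).1 hz
    have e1 : 1 ≤ g z := by linarith
    refine ⟨by rintro rfl; rw [G.zero] at e1; linarith, e1, ?_⟩
    have e2 : bb g (tt n j) / z - ((g z)⁻¹ : ℝ) =
        ((g z)⁻¹ : ℝ) * (bb g (tt n j) / bb g (arg z) - 1) := by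
      have e3 : z = g z * bb g (arg z) := (G.ps_arg z).symm
      have e4 := G.bb_ne (arg z)
      have e5 : (g z : ℂ) ≠ 0 := ofReal_ne_zero.2 (by linarith)
      generalize g z = s at e3 e5
      generalize bb g (arg z) = w at e3 e4
      rw [e3]
      push_cast
      field_simp
    rw [e2, norm_mul, norm_real, Real.norm_of_nonneg (by positivity)]
    exact (mul_le_of_le_one_left (norm_nonneg _) (inv_le_one_of_one_le₀ e1)).trans_lt
      (hfine j j.2 _ (by linarith) (by linarith))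
  refine ⟨κ, h, n, fun j => bb g (tt n j), fun j => sec g n j (τ / 2) (N + 1), k1, h1,
    fun z hz => ?_, fun z a b => ?_, fun z a b => ?_, fun j => ⟨hfr _ (G.g_bb _), G.sec_compact _⟩,
    fun i j hij => ?_, fun j z hz => ?_, fun j z hz a b => ?_⟩
  · have e := (hle z).2 hz
    refine ⟨(k2 z e).trans_le (min_le_left _ _), (h2 z (e.trans hN) fun j _ hj => ?_).trans_le
      (min_le_left _ _)⟩
    linarith [hj.2.1]
  · have e : 1 ≤ max 1 (g z) := le_max_left _ _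
    refine ⟨(max 1 (g z))⁻¹, by positivity, inv_le_one_of_one_le₀ e, by linarith [hb z a b],
      (hle _).1 ?_⟩
    rw [G.hom _ (by positivity), inv_mul_le_iff₀ (by positivity), mul_one]
    exact le_max_right _ _
  · by_contra hcon
    have e := (h2 z (hM z a) fun j hj hz => hcon ⟨⟨j, hj⟩,
      interior_maximal (fun w hw => (G.mem_sec hj hτ2).2
        ⟨⟨hw.1.1.le, hw.1.2.le⟩, hw.2.1.le, hw.2.2.le⟩) (G.osec_open hj hτ2) hz⟩).trans_le
          (min_le_right _ _)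
    have e2 := (abs_lt.1 ((abs_re_le_norm _).trans_lt e)).1
    simp only [sub_re, one_re] at e2
    linarith
  · refine Set.disjoint_left.2 fun z a b => hij (Fin.ext ?_)
    obtain ⟨⟨a1, a2⟩, -⟩ := (G.mem_sec i.2 hτ2).1 a
    obtain ⟨⟨b1, b2⟩, -⟩ := (G.mem_sec j.2 hτ2).1 b
    exact tt_uniq (n := n) (θ := arg z) (by linarith) (by linarith) (by linarith) (by linarith)
  · obtain ⟨a, b, c⟩ := hd j z hz
    exact ⟨a, (g z)⁻¹, by positivity, inv_le_one_of_one_le₀ b, by linarith⟩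
  · obtain ⟨-, c, d⟩ := hd j z hz
    have e := hb z a b
    rw [max_eq_right c] at e
    rw [norm_sub_rev] at d
    linarith [norm_sub_le_norm_sub_add_norm_sub (κ z) (((g z)⁻¹ : ℝ) : ℂ) (bb g (tt n j) / z)]

end Vale.Agent.P290Z.PL
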