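import Mathlib

/-!
# P290: polar coordinates for a gauge and the two approximations of the planar lemma
-/

noncomputable section
namespace Vale.Agent.P290Z.PL
open Complex Set Topology Filter Metric

/-- The approximation theorem for compact sets with unbounded complementary components. -/
def RS : Prop := ∀ K : Set ℂ, IsCompact K →
  (∀ a ∉ K, ∃ S : Set ℂ, IsPreconnected S ∧ ¬ Bornology.IsBounded S ∧ a ∈ S ∧ Disjoint S K) →
  ∀ φ : ℂ → ℂ, ContDiff ℝ 1 φ → (∀ᵐ z, z ∈ K → DifferentiableAt ℂ φ z) →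
  ∀ ε : ℝ, 0 < ε → ∃ F : ℂ → ℂ, Differentiable ℂ F ∧ ∀ z ∈ K, ‖F z - φ z‖ < ε

structure Gg (g : ℂ → ℝ) : Prop where
  cont : Continuous g
  hom : ∀ t : ℝ, 0 ≤ t → ∀ z, g (t * z) = t * g z
  pos : ∀ z, z ≠ 0 → 0 < g z

/-- the point of gauge one in the direction `θ` -/
def bb (g : ℂ → ℝ) (θ : ℝ) : ℂ := ((g (exp (θ * I)))⁻¹ : ℝ) * exp (θ * I)

/-- polar coordinates -/
def ps (g : ℂ → ℝ) (x : ℝ × ℝ) : ℂ := x.2 * bb g x.1

variable {g : ℂ → ℝ} (G : Gg g)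
include G

theorem Gg.zero : g 0 = 0 := by simpa using G.hom 0 le_rfl 0

theorem Gg.nonneg (z : ℂ) : 0 ≤ g z := by
  rcases eq_or_ne z 0 with rfl | h
  · exact G.zero.ge
  · exact (G.pos z h).le

theorem Gg.pos_exp (θ : ℝ) : 0 < g (exp (θ * I)) := G.pos _ (exp_ne_zero _)

theorem Gg.bb_cont : Continuous (bb g) := by
  have h : Continuous fun θ : ℝ => exp (θ * I) := by fun_prop
  exact (continuous_ofReal.comp ((G.cont.comp h).inv₀ fun θ => (G.pos_exp θ).ne')).mul h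

theorem Gg.bb_ne (θ : ℝ) : bb g θ ≠ 0 :=
  mul_ne_zero (ofReal_ne_zero.2 (inv_ne_zero (G.pos_exp θ).ne')) (exp_ne_zero _)

theorem Gg.g_bb (θ : ℝ) : g (bb g θ) = 1 := by
  rw [bb, G.hom _ (inv_nonneg.2 (G.pos_exp θ).le), inv_mul_cancel₀ (G.pos_exp θ).ne']

theorem Gg.ps_cont : Continuous (ps g) :=
  (continuous_ofReal.comp continuous_snd).mul (G.bb_cont.comp continuous_fst)

theorem Gg.g_ps (θ : ℝ) {s : ℝ} (hs : 0 ≤ s) : g (ps g (θ, s)) = s := by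
  rw [ps, G.hom _ hs, G.g_bb, mul_one]

theorem Gg.arg_ps {θ s : ℝ} (h1 : -Real.pi < θ) (h2 : θ ≤ Real.pi) (hs : 0 < s) :
    arg (ps g (θ, s)) = θ := by
  rw [ps, bb, arg_real_mul _ hs, exp_mul_I, arg_mul_cos_add_sin_mul_I _ ⟨h1, h2⟩]
  rw [← exp_mul_I]
  exact inv_pos.2 (G.pos_exp θ)

theorem Gg.ps_arg (z : ℂ) : ps g (arg z, g z) = z := by
  have h := norm_mul_exp_arg_mul_I z
  have h2 : g z = ‖z‖ * g (exp (arg z * I)) := by
    conv_lhs => rw [← h]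
    exact G.hom _ (norm_nonneg z) _
  have h3 : (g (exp (arg z * I)) : ℂ) ≠ 0 := ofReal_ne_zero.2 (G.pos_exp _).ne'
  rw [ps, bb, h2]
  push_cast
  rw [← mul_assoc, mul_assoc (‖z‖ : ℂ), mul_inv_cancel₀ h3, mul_one, h]

theorem Gg.isCompact_le (N : ℝ) : IsCompact {z | g z ≤ N} := by
  refine (((isCompact_Icc (a := -Real.pi) (b := Real.pi)).prod
    (isCompact_Icc (a := 0) (b := N))).image G.ps_cont).of_isClosed_subset
    (isClosed_le G.cont continuous_const) fun z hz => ?_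
  exact ⟨(arg z, g z), ⟨⟨(neg_pi_lt_arg z).le, arg_le_pi z⟩, G.nonneg z, hz⟩, G.ps_arg z⟩

theorem Gg.exists_bound (M : ℝ) : ∃ N : ℝ, 1 ≤ N ∧ ∀ z, ‖z‖ ≤ M → g z ≤ N := by
  obtain ⟨N, hN⟩ := ((isCompact_closedBall (0 : ℂ) M).image G.cont).bddAbove
  exact ⟨max 1 N, le_max_left _ _, fun z hz =>
    (hN ⟨z, by simpa using hz, rfl⟩).trans (le_max_right _ _)⟩

theorem Gg.unbdd {Z : Set (ℝ × ℝ)} {θ s : ℝ} (h : ∀ s', s ≤ s' → (θ, s') ∈ Z) :
    ¬ Bornology.IsBounded (ps g '' Z) := by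
  intro hb
  obtain ⟨M, hM⟩ := hb.exists_norm_le
  obtain ⟨N, h1, hN⟩ := G.exists_bound M
  have h2 := hN _ (hM _ ⟨_, h (max s (N + 1)) (le_max_left _ _), rfl⟩)
  rw [G.g_ps _ (le_trans (by linarith) (le_max_right s (N + 1)))] at h2
  linarith [le_max_right s (N + 1)]

/-- escape along a ray -/
theorem Gg.ray {K : Set ℂ} (a : ℂ) (h : ∀ s, g a ≤ s → ps g (arg a, s) ∉ K) :
    ∃ S : Set ℂ, IsPreconnected S ∧ ¬ Bornology.IsBounded S ∧ a ∈ S ∧ Disjoint S K := by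
  refine ⟨ps g '' ({arg a} ×ˢ Ici (g a)), (isPreconnected_singleton.prod isPreconnected_Ici).image _
    G.ps_cont.continuousOn, G.unbdd (θ := arg a) (s := g a) fun s' hs => ⟨rfl, hs⟩,
    ⟨(arg a, g a), ⟨rfl, self_mem_Ici⟩, G.ps_arg a⟩, Set.disjoint_left.2 ?_⟩
  rintro _ ⟨⟨θ, s⟩, ⟨h1, h2⟩, rfl⟩
  obtain rfl : θ = arg a := h1
  exact h s h2

/-- escape along a level arc and then a ray -/
theorem Gg.hook {K : Set ℂ} (a : ℂ) {θ : ℝ} (hθ : θ ≤ arg a)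
    (h1 : ∀ t, θ ≤ t → t ≤ arg a → ps g (t, g a) ∉ K) (h2 : ∀ s, g a ≤ s → ps g (θ, s) ∉ K) :
    ∃ S : Set ℂ, IsPreconnected S ∧ ¬ Bornology.IsBounded S ∧ a ∈ S ∧ Disjoint S K := by
  refine ⟨ps g '' (Icc θ (arg a) ×ˢ {g a} ∪ {θ} ×ˢ Ici (g a)), IsPreconnected.image ?_ _
    G.ps_cont.continuousOn, G.unbdd (θ := θ) (s := g a) fun s' hs => Or.inr ⟨rfl, hs⟩,
    ⟨(arg a, g a), Or.inl ⟨⟨hθ, le_rfl⟩, rfl⟩, G.ps_arg a⟩, Set.disjoint_left.2 ?_⟩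
  · exact IsPreconnected.union (θ, g a) ⟨⟨le_rfl, hθ⟩, rfl⟩ ⟨rfl, self_mem_Ici⟩
      (isPreconnected_Icc.prod isPreconnected_singleton)
      (isPreconnected_singleton.prod isPreconnected_Ici)
  · rintro _ ⟨⟨t, s⟩, ⟨k1, k2⟩ | ⟨k1, k2⟩, rfl⟩
    · obtain rfl : s = g a := k2
      exact h1 t k1.1 k1.2
    · obtain rfl : t = θ := k1
      exact h2 s k2

omit G in
theorem line_null {w : ℂ} (hw : w ≠ 0) : ∀ᵐ z : ℂ, ∀ s : ℝ, z ≠ s * w := by
  have h : MeasureTheory.volume (Submodule.span ℝ {w} : Set ℂ) = 0 := by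
    refine MeasureTheory.Measure.addHaar_submodule _ _ fun h => ?_
    have h2 : I * w ∈ Submodule.span ℝ {w} := h ▸ Submodule.mem_top
    obtain ⟨a, ha⟩ := Submodule.mem_span_singleton.1 h2
    rw [real_smul] at ha
    have := congrArg im (mul_right_cancel₀ hw ha)
    simp at this
  filter_upwards [MeasureTheory.compl_mem_ae_iff.2 h] with z hz s hs
  exact hz (Submodule.mem_span_singleton.2 ⟨s, by rw [real_smul, hs]⟩)

omit G in
theorem inv_close {s δ : ℝ} (h1 : 1 ≤ s) (hδ : 0 ≤ δ) :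
    ‖(((max 1 (s - δ))⁻¹ : ℝ) : ℂ) - (s⁻¹ : ℝ)‖ ≤ δ := by
  have u1 : 1 ≤ max 1 (s - δ) := le_max_left _ _
  have u2 : s - δ ≤ max 1 (s - δ) := le_max_right _ _
  have u3 : max 1 (s - δ) ≤ s := max_le h1 (by linarith)
  generalize max 1 (s - δ) = u at *
  have u4 : u⁻¹ - s⁻¹ = (s - u) / (u * s) := by field_simp
  rw [← ofReal_sub, norm_real, u4,
    Real.norm_of_nonneg (div_nonneg (by linarith) (by positivity))]
  exact (div_le_self (by linarith) (by nlinarith)).trans (by linarith)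

theorem Gg.smooth {δ : ℝ} (hδ : 0 < δ) : ∃ φ : ℂ → ℂ, ContDiff ℝ 1 φ ∧
    (∀ z, g z ≤ 1 + δ / 2 → φ z = 1) ∧ ∀ z, 1 ≤ g z → ‖φ z - ((g z)⁻¹ : ℝ)‖ < 2 * δ := by
  have hc : Continuous fun z => (((max 1 (g z - δ))⁻¹ : ℝ) : ℂ) :=
    continuous_ofReal.comp ((continuous_const.max (G.cont.sub continuous_const)).inv₀
      fun z => (lt_of_lt_of_le one_pos (le_max_left _ _)).ne')
  have hone : ∀ z, g z ≤ 1 + δ → (((max 1 (g z - δ))⁻¹ : ℝ) : ℂ) = 1 := fun z hz => by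
    rw [max_eq_left (by linarith)]; simp
  have h1 : {z | g z < 1 + δ} ∈ 𝓝ˢ {z | g z ≤ 1 + δ / 2} :=
    (isOpen_lt G.cont continuous_const).mem_nhdsSet.2 fun z (hz : g z ≤ _) =>
      (show g z < _ by linarith)
  have h2 : ContDiffOn ℝ (1 : ℕ∞) (fun z => (((max 1 (g z - δ))⁻¹ : ℝ) : ℂ)) {z | g z < 1 + δ} :=
    contDiffOn_const.congr fun z (hz : g z < _) => hone z hz.le
  obtain ⟨φ, p1, p2, p3, -⟩ := hc.exists_contDiff_approx_and_eqOn 1 (ε := fun _ => δ)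
    continuous_const (fun _ => hδ) (isClosed_le G.cont continuous_const) h1 h2
  refine ⟨φ, by exact_mod_cast p1, fun z hz => (p3 hz).trans (hone z (by linarith)),
    fun z hz => ?_⟩
  have e2 := p2 z
  rw [dist_eq_norm] at e2
  linarith [norm_sub_le_norm_sub_add_norm_sub (φ z) (((max 1 (g z - δ))⁻¹ : ℝ) : ℂ)
    (((g z)⁻¹ : ℝ) : ℂ), inv_close hz hδ.le]

/-- the body with slits -/
def sl (g : ℂ → ℝ) (T : Finset ℝ) (N : ℝ) : Set ℂ :=
  {z | g z ≤ 1} ∪ ⋃ t ∈ T, ps g '' ({t} ×ˢ Icc 1 N)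

omit G in
theorem mem_sl {T : Finset ℝ} {N : ℝ} {z : ℂ} :
    z ∈ sl g T N ↔ g z ≤ 1 ∨ ∃ t ∈ T, ∃ s, 1 ≤ s ∧ s ≤ N ∧ ps g (t, s) = z := by
  refine or_congr Iff.rfl ?_
  simp only [mem_iUnion]
  constructor
  · rintro ⟨t, ht, ⟨t', s⟩, ⟨e1, e2, e3⟩, e4⟩
    obtain rfl : t' = t := e1
    exact ⟨t', ht, s, e2, e3, e4⟩
  · rintro ⟨t, ht, s, e2, e3, e4⟩
    exact ⟨t, ht, (t, s), ⟨rfl, e2, e3⟩, e4⟩

theorem Gg.sl_ray {T : Finset ℝ} {N : ℝ} {a : ℂ} (ha : a ∉ sl g T N) (s : ℝ) (hs : g a ≤ s) :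
    ps g (arg a, s) ∉ sl g T N := by
  rw [mem_sl] at ha ⊢
  have h1 : 1 < g a := lt_of_not_ge fun h => ha (Or.inl h)
  rintro (h | ⟨t, ht, s', e2, e3, e4⟩)
  · rw [G.g_ps _ (by linarith)] at h
    linarith
  · have e5 := congrArg g e4
    rw [G.g_ps _ (by linarith), G.g_ps _ (by linarith)] at e5
    subst e5
    have e6 : bb g t = bb g (arg a) :=
      mul_left_cancel₀ (ofReal_ne_zero.2 (lt_of_lt_of_le one_pos e2).ne') e4
    refine ha (Or.inr ⟨t, ht, g a, h1.le, hs.trans e3, ?_⟩)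
    rw [ps, e6]
    exact G.ps_arg a

/-- the function which is near `1` on the body and near `1 / g` on the slits -/
theorem Gg.kappa (hR : RS) (T : Finset ℝ) (N : ℝ) {ε : ℝ} (hε : 0 < ε) :
    ∃ κ : ℂ → ℂ, Differentiable ℂ κ ∧ (∀ z, g z ≤ 1 → ‖κ z - 1‖ < ε) ∧
      ∀ t ∈ T, ∀ s : ℝ, 1 ≤ s → s ≤ N → ‖κ (ps g (t, s)) - (s⁻¹ : ℝ)‖ < ε := by
  obtain ⟨φ, p1, p4, p2⟩ := G.smooth (δ := ε / 3) (by positivity)
  have hK : IsCompact (sl g T N) := (G.isCompact_le 1).union (T.isCompact_biUnion fun t _ =>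
    (isCompact_singleton.prod isCompact_Icc).image G.ps_cont)
  have hd : ∀ᵐ z, z ∈ sl g T N → DifferentiableAt ℂ φ z := by
    have h0 : ∀ᵐ z : ℂ, ∀ t ∈ (T : Set ℝ), ∀ s : ℝ, z ≠ s * bb g t :=
      (MeasureTheory.ae_ball_iff T.countable_toSet).2 fun t _ => line_null (G.bb_ne t)
    filter_upwards [h0] with z hz hK
    rcases mem_sl.1 hK with h | ⟨t, ht, s, -, -, e⟩
    · have : φ =ᶠ[𝓝 z] fun _ => 1 := by
        filter_upwards [(isOpen_lt G.cont continuous_const).mem_nhds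
          (show g z < 1 + ε / 3 / 2 by linarith)] with w hw
        exact p4 w (le_of_lt hw)
      exact (differentiableAt_const _).congr_of_eventuallyEq this
    · exact absurd e.symm (hz t ht s)
  obtain ⟨κ, k1, k2⟩ := hR _ hK (fun a ha => G.ray a (G.sl_ray ha)) φ p1 hd (ε / 3)
    (by positivity)
  refine ⟨κ, k1, fun z hz => ?_, fun t ht s h1 h2 => ?_⟩
  · have := k2 z (mem_sl.2 (Or.inl hz))
    rw [p4 z (by linarith)] at this
    linarith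
  · have e1 := k2 _ (mem_sl.2 (Or.inr ⟨t, ht, s, h1, h2, rfl⟩))
    have e2 := p2 (ps g (t, s))
    rw [G.g_ps t (by linarith)] at e2
    linarith [norm_sub_le_norm_sub_add_norm_sub (κ (ps g (t, s))) (φ (ps g (t, s)))
      ((s⁻¹ : ℝ) : ℂ), e2 h1]

omit G in
/-- an entire function which is near `1` on `A` and near `-2` on `B` -/
theorem two_val (hR : RS) {A B : Set ℂ} (hA : IsCompact A) (hB : IsCompact B) (hd : Disjoint A B)
    (hc : ∀ a ∉ A ∪ B, ∃ S : Set ℂ, IsPreconnected S ∧ ¬ Bornology.IsBounded S ∧ a ∈ S ∧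
      Disjoint S (A ∪ B)) {ε : ℝ} (hε : 0 < ε) :
    ∃ h : ℂ → ℂ, Differentiable ℂ h ∧ (∀ z ∈ A, ‖h z - 1‖ < ε) ∧ ∀ z ∈ B, ‖h z + 2‖ < ε := by
  obtain ⟨f, f0, f1, -⟩ := exists_contMDiffMap_zero_one_nhds_of_isClosed (n := 1)
    (modelWithCornersSelf ℝ ℂ) hA.isClosed hB.isClosed hd
  have hf : ContDiff ℝ 1 f := by exact_mod_cast f.contMDiff.contDiff
  have hdf : ∀ z ∈ A ∪ B, DifferentiableAt ℂ (fun z => 1 - 3 * (f z : ℂ)) z := by
    rintro z (hz | hz)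
    · refine (differentiableAt_const (1 - 3 * ((0 : ℝ) : ℂ))).congr_of_eventuallyEq ?_
      filter_upwards [f0.filter_mono (nhds_le_nhdsSet hz)] with w hw
      rw [hw]
    · refine (differentiableAt_const (1 - 3 * ((1 : ℝ) : ℂ))).congr_of_eventuallyEq ?_
      filter_upwards [f1.filter_mono (nhds_le_nhdsSet hz)] with w hw
      rw [hw]
  obtain ⟨h, h1, h2⟩ := hR (A ∪ B) (hA.union hB) hc (fun z => 1 - 3 * (f z : ℂ))
    (contDiff_const.sub (contDiff_const.mul (ofRealCLM.contDiff.comp hf)))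
    (Eventually.of_forall hdf) ε hε
  refine ⟨h, h1, fun z hz => ?_, fun z hz => ?_⟩
  · simpa [f0.self_of_nhdsSet z hz] using h2 z (Or.inl hz)
  · have := h2 z (Or.inr hz)
    rw [f1.self_of_nhdsSet z hz] at this
    convert this using 2
    push_cast
    ring

end Vale.Agent.P290Z.PL
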