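import Vale.Agent.P290Z.PL.A

/-!
# P290: sectors and the function `h` of the planar lemma
-/

noncomputable section
namespace Vale.Agent.P290Z.PL
open Complex Set Topology Filter Metric

/-- the partition of the circle -/
def tt (n : ℕ) (j : ℕ) : ℝ := -Real.pi + j * (2 * Real.pi / n)

theorem tt_succ (n j : ℕ) : tt n (j + 1) = tt n j + 2 * Real.pi / n := by
  simp only [tt]; push_cast; ring

theorem tt_mono (n : ℕ) {i j : ℕ} (h : i ≤ j) : tt n i ≤ tt n j := by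
  have : (i : ℝ) ≤ j := by exact_mod_cast h
  have h2 : 0 ≤ 2 * Real.pi / n := by positivity
  simp only [tt]
  nlinarith

theorem tt_ge (n j : ℕ) : -Real.pi ≤ tt n j := by
  simpa [tt] using (by positivity : 0 ≤ (j : ℝ) * (2 * Real.pi / n))

theorem tt_le {n j : ℕ} (hn : 0 < n) (h : j ≤ n) : tt n j ≤ Real.pi := by
  refine (tt_mono n h).trans (le_of_eq ?_)
  have : (n : ℝ) ≠ 0 := by positivity
  simp only [tt]
  field_simp
  ring

theorem tt_cover {n : ℕ} (hn : 0 < n) {θ : ℝ} (h1 : -Real.pi < θ) (h2 : θ ≤ Real.pi) :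
    ∃ j < n, tt n j ≤ θ ∧ θ ≤ tt n (j + 1) := by
  by_contra h
  push Not at h
  have key : ∀ j ≤ n, tt n j < θ := by
    intro j
    induction j with
    | zero => intro _; simpa [tt] using h1
    | succ j ih => intro hj; exact h j hj (ih (by omega)).le
  have h3 : tt n n = Real.pi := by
    have : (n : ℝ) ≠ 0 := by positivity
    simp only [tt]
    field_simp
    ring
  linarith [key n le_rfl]

/-- closed sectors -/
def sec (g : ℂ → ℝ) (n j : ℕ) (τ N : ℝ) : Set ℂ :=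
  ps g '' (Icc (tt n j + τ) (tt n (j + 1) - τ) ×ˢ Icc (1 + τ) N)

/-- open sectors -/
def osec (g : ℂ → ℝ) (n j : ℕ) (τ N : ℝ) : Set ℂ :=
  {z | (tt n j + τ < arg z ∧ arg z < tt n (j + 1) - τ) ∧ 1 + τ < g z ∧ g z < N}

variable {g : ℂ → ℝ} (G : Gg g) {n : ℕ} {τ N : ℝ}
include G

theorem Gg.sec_compact (j : ℕ) : IsCompact (sec g n j τ N) :=
  (isCompact_Icc.prod isCompact_Icc).image G.ps_cont

theorem Gg.mem_sec {j : ℕ} (hj : j < n) (hτ : 0 < τ) {z : ℂ} : z ∈ sec g n j τ N ↔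
    (tt n j + τ ≤ arg z ∧ arg z ≤ tt n (j + 1) - τ) ∧ 1 + τ ≤ g z ∧ g z ≤ N := by
  constructor
  · rintro ⟨⟨θ, s⟩, ⟨⟨h1, h2⟩, h3, h4⟩, rfl⟩
    simp only at h1 h2 h3 h4
    rw [G.arg_ps (by linarith [tt_ge n j]) (by linarith [tt_le (j := j + 1) (by omega) hj])
      (by linarith), G.g_ps _ (by linarith)]
    exact ⟨⟨h1, h2⟩, h3, h4⟩
  · intro h
    exact ⟨(arg z, g z), h, G.ps_arg z⟩

theorem Gg.osec_open {j : ℕ} (hj : j < n) (hτ : 0 < τ) : IsOpen (osec g n j τ N) := by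
  refine isOpen_iff_mem_nhds.2 fun z ⟨⟨h1, h2⟩, h3, h4⟩ => ?_
  have hz : z ∈ slitPlane := mem_slitPlane_iff_arg.2 ⟨by
    linarith [tt_le (j := j + 1) (by omega) hj] , by
    rintro rfl
    rw [G.zero] at h3
    linarith⟩
  have hc := continuousAt_arg hz
  filter_upwards [hc.eventually (lt_mem_nhds h1), hc.eventually (gt_mem_nhds h2),
    G.cont.continuousAt.eventually (lt_mem_nhds h3),
    G.cont.continuousAt.eventually (gt_mem_nhds h4)] with w a b c d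
  exact ⟨⟨a, b⟩, c, d⟩

omit G in
theorem tt_uniq {i j : ℕ} {θ : ℝ} (h1 : tt n i < θ) (h2 : θ < tt n (i + 1)) (h3 : tt n j < θ)
    (h4 : θ < tt n (j + 1)) : i = j := by
  rcases lt_trichotomy i j with h | h | h
  · linarith [tt_mono n (show i + 1 ≤ j from h)]
  · exact h
  · linarith [tt_mono n (show j + 1 ≤ i from h)]

/-- the function `h` -/
theorem Gg.hfun (hR : RS) (n : ℕ) (hτ : 0 < τ) (N : ℝ) {ε : ℝ} (hε : 0 < ε) :
    ∃ h : ℂ → ℂ, Differentiable ℂ h ∧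
      (∀ z, g z ≤ N → (∀ j < n, z ∉ osec g n j (τ / 2) (N + 1)) → ‖h z - 1‖ < ε) ∧
      ∀ j < n, ∀ z ∈ sec g n j τ N, ‖h z + 2‖ < ε := by
  have hτ2 : 0 < τ / 2 := by positivity
  obtain ⟨A, hA⟩ : ∃ A : Set ℂ, A = {z | g z ≤ N} \ ⋃ j ∈ Iio n, osec g n j (τ / 2) (N + 1) :=
    ⟨_, rfl⟩
  obtain ⟨B, hB⟩ : ∃ B : Set ℂ, B = ⋃ j ∈ Iio n, sec g n j τ N := ⟨_, rfl⟩
  have mA : ∀ z, z ∈ A ↔ g z ≤ N ∧ ∀ j < n, z ∉ osec g n j (τ / 2) (N + 1) := fun z => by
    simp [hA]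
  have mB : ∀ z, z ∈ B ↔ ∃ j < n, z ∈ sec g n j τ N := fun z => by simp [hB]
  have cA : IsCompact A :=
    hA ▸ (G.isCompact_le N).diff (isOpen_biUnion fun j hj => G.osec_open hj hτ2)
  have cB : IsCompact B := hB ▸ (finite_Iio n).isCompact_biUnion fun j _ => G.sec_compact j
  have hd : Disjoint A B := by
    refine Set.disjoint_left.2 fun z h1 h2 => ?_
    obtain ⟨j, hj, h2⟩ := (mB z).1 h2
    obtain ⟨⟨a, b⟩, c, d⟩ := (G.mem_sec hj hτ).1 h2
    exact ((mA z).1 h1).2 j hj ⟨⟨by linarith, by linarith⟩, by linarith, by linarith⟩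
  have out : ∀ j < n, ∀ θ s, tt n j + τ / 2 < θ → θ < tt n (j + 1) - τ / 2 → 1 + τ / 2 < s →
      (θ < tt n j + τ ∨ tt n (j + 1) - τ < θ ∨ s < 1 + τ) → ps g (θ, s) ∉ A ∪ B := by
    intro j hj θ s h1 h2 h3 h4
    have e1 : arg (ps g (θ, s)) = θ := G.arg_ps (by linarith [tt_ge n j])
      (by linarith [tt_le (j := j + 1) (by omega) hj]) (by linarith)
    have e2 : g (ps g (θ, s)) = s := G.g_ps _ (by linarith)
    rintro (h | h)
    · obtain ⟨a, b⟩ := (mA _).1 h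
      refine b j hj ?_
      rw [osec, mem_ofPred_eq, e1]
      rw [e2] at a ⊢
      exact ⟨⟨h1, h2⟩, h3, by linarith⟩
    · obtain ⟨i, hi, h⟩ := (mB _).1 h
      rw [G.mem_sec hi hτ, e1, e2] at h
      obtain ⟨⟨a, b⟩, c, d⟩ := h
      obtain rfl : i = j := tt_uniq (n := n) (θ := θ) (by linarith) (by linarith) (by linarith)
        (by linarith)
      rcases h4 with h | h | h <;> linarith
  obtain ⟨h, h1, h2, h3⟩ := two_val hR cA cB hd (fun a ha => by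
    by_cases h0 : g a ≤ N
    · have : ∃ j < n, a ∈ osec g n j (τ / 2) (N + 1) := by
        by_contra hc
        push Not at hc
        exact ha (Or.inl ((mA a).2 ⟨h0, hc⟩))
      obtain ⟨j, hj, ⟨a1, a2⟩, a3, a4⟩ := this
      by_cases h5 : arg a < tt n j + τ ∨ tt n (j + 1) - τ < arg a
      · exact G.ray a fun s hs => out j hj _ _ a1 a2 (by linarith) (by tauto)
      · push Not at h5
        have h6 : g a < 1 + τ := lt_of_not_ge fun h6 =>
          ha (Or.inr ((mB a).2 ⟨j, hj, (G.mem_sec hj hτ).2 ⟨h5, h6, h0⟩⟩))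
        exact G.hook a (θ := tt n j + 3 * τ / 4) (by linarith [h5.1])
          (fun t t1 t2 => out j hj _ _ (by linarith) (by linarith) a3 (Or.inr (Or.inr h6)))
          fun s hs => out j hj _ _ (by linarith) (by linarith [h5.1]) (by linarith)
            (Or.inl (by linarith))
    · refine G.ray a fun s hs h => ?_
      have e2 : g (ps g (arg a, s)) = s := G.g_ps _ ((G.nonneg a).trans hs)
      rcases h with h | h
      · linarith [((mA _).1 h).1]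
      · obtain ⟨i, hi, h⟩ := (mB _).1 h
        linarith [((G.mem_sec hi hτ).1 h).2.2]) hε
  exact ⟨h, h1, fun z a b => h2 z ((mA z).2 ⟨a, b⟩), fun j hj z hz => h3 z ((mB z).2 ⟨j, hj, hz⟩)⟩

/-- a fine partition -/
theorem Gg.fine {η : ℝ} (hη : 0 < η) : ∃ n : ℕ, 0 < n ∧ ∀ j < n, ∀ θ, tt n j ≤ θ →
    θ ≤ tt n (j + 1) → ‖bb g (tt n j) / bb g θ - 1‖ < η := by
  have hc : Continuous fun x : ℝ × ℝ => bb g x.1 / bb g x.2 :=
    (G.bb_cont.comp continuous_fst).div (G.bb_cont.comp continuous_snd) fun x => G.bb_ne _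
  obtain ⟨δ, hδ, h⟩ := Metric.uniformContinuousOn_iff.1
    (((isCompact_Icc (a := -Real.pi) (b := Real.pi)).prod
      (isCompact_Icc (a := -Real.pi) (b := Real.pi))).uniformContinuousOn_of_continuous
        hc.continuousOn) η hη
  obtain ⟨n, hn⟩ := exists_nat_gt (2 * Real.pi / δ)
  have h0 : (0 : ℝ) < n := lt_trans (by positivity) hn
  have hn' : 0 < n := by exact_mod_cast h0
  have h1 : 2 * Real.pi / n < δ := by
    rw [div_lt_iff₀ h0]
    rw [div_lt_iff₀ hδ] at hn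
    linarith
  refine ⟨n, hn', fun j hj θ a b => ?_⟩
  have m1 : θ ∈ Icc (-Real.pi) Real.pi := ⟨(tt_ge n j).trans a, b.trans (tt_le hn' hj)⟩
  have := h (tt n j, θ) ⟨⟨tt_ge n j, tt_le hn' hj.le⟩, m1⟩ (θ, θ) ⟨m1, m1⟩ (by
    rw [Prod.dist_eq, dist_self, Real.dist_eq]
    rw [tt_succ] at b
    exact max_lt (abs_lt.2 ⟨by simp only; linarith, by simp only; linarith⟩) hδ)
  rwa [dist_eq_norm, div_self (G.bb_ne θ)] at this

/-- the approximation persists on a comb -/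
theorem Gg.comb (hn : 0 < n) {κ : ℂ → ℂ} (hκ : Continuous κ) {η : ℝ} (hη : 0 < η) (hN : 1 ≤ N)
    (h1 : ∀ z, g z ≤ 1 → ‖κ z - 1‖ < η)
    (h2 : ∀ j ≤ n, ∀ s : ℝ, 1 ≤ s → s ≤ N → ‖κ (ps g (tt n j, s)) - (s⁻¹ : ℝ)‖ < η) :
    ∃ τ > (0 : ℝ), ∀ z, g z ≤ N → (∀ j < n, z ∉ sec g n j τ N) →
      ‖κ z - ((max 1 (g z))⁻¹ : ℝ)‖ < 2 * η := by
  have hc : Continuous fun x : ℝ × ℝ => κ (ps g x) - ((max 1 x.2)⁻¹ : ℝ) :=
    (hκ.comp G.ps_cont).sub (continuous_ofReal.comp ((continuous_const.max continuous_snd).inv₀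
      fun z => (lt_of_lt_of_le one_pos (le_max_left _ _)).ne'))
  obtain ⟨τ, hτ, h⟩ := Metric.uniformContinuousOn_iff.1
    (((isCompact_Icc (a := -Real.pi) (b := Real.pi)).prod
      (isCompact_Icc (a := 0) (b := N))).uniformContinuousOn_of_continuous
        hc.continuousOn) η hη
  refine ⟨τ, hτ, fun z hz hs => ?_⟩
  have m1 : arg z ∈ Icc (-Real.pi) Real.pi := ⟨(neg_pi_lt_arg z).le, arg_le_pi z⟩
  have key : ∀ θ s, θ ∈ Icc (-Real.pi) Real.pi → 1 ≤ s → s ≤ N → |arg z - θ| < τ → |g z - s| < τ →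
      ‖κ (ps g (θ, s)) - (s⁻¹ : ℝ)‖ < η → ‖κ z - ((max 1 (g z))⁻¹ : ℝ)‖ < 2 * η := by
    intro θ s a b c d e f
    have := h (arg z, g z) ⟨m1, G.nonneg z, hz⟩ (θ, s) ⟨a, by simp only; linarith, c⟩ (by
      rw [Prod.dist_eq, Real.dist_eq, Real.dist_eq]
      exact max_lt d e)
    simp only [G.ps_arg, max_eq_right b, dist_eq_norm] at this
    linarith [norm_le_norm_sub_add (κ z - ((max 1 (g z))⁻¹ : ℝ)) (κ (ps g (θ, s)) - (s⁻¹ : ℝ))]
  rcases le_or_gt (g z) 1 with h3 | h3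
  · rw [max_eq_left h3]
    have := h1 z h3
    simp only [inv_one, ofReal_one]
    linarith
  rcases lt_or_ge (g z) (1 + τ) with h4 | h4
  · refine key (arg z) 1 m1 le_rfl hN (by simpa using hτ) (abs_lt.2 ⟨by linarith, by linarith⟩) ?_
    simpa using h1 _ (G.g_ps (arg z) zero_le_one).le
  obtain ⟨j, hj, a, b⟩ := tt_cover hn (neg_pi_lt_arg z) (arg_le_pi z)
  have h5 := hs j hj
  rw [G.mem_sec hj hτ] at h5
  rcases lt_or_ge (arg z) (tt n j + τ) with h6 | h6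
  · exact key (tt n j) (g z) ⟨tt_ge _ _, tt_le hn hj.le⟩ h3.le hz
      (abs_lt.2 ⟨by linarith, by linarith⟩) (by simpa using hτ) (h2 j hj.le _ h3.le hz)
  · have h7 : tt n (j + 1) - τ < arg z := lt_of_not_ge fun h7 => h5 ⟨⟨h6, h7⟩, h4, hz⟩
    exact key (tt n (j + 1)) (g z) ⟨tt_ge _ _, tt_le hn hj⟩ h3.le hz
      (abs_lt.2 ⟨by linarith, by linarith⟩) (by simpa using hτ) (h2 (j + 1) hj _ h3.le hz)

end Vale.Agent.P290Z.PL
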